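import Vale.Agent.P281.H713.TZ.Core
import Vale.Agent.P281.H413.MFS.DensM
import Vale.Agent.P281.H76.Pull

/-!
# P281, T-COV (helper495): generically finite maps (a copy of helper877, R2/H877/Gf, with few imports)

`kodF n n Δ j f ≤ κ(X, K_X + Δ)` if `f : X ⇢ Y` is submersive somewhere, `dim X = dim Y`.
-/

open scoped Manifold ContDiff Topology
open Set Filter Metric Vale.Agent.P281 Vale.Agent.P272.K
open Vale.Agent.P281.MF Vale.Agent.P281.ISO Vale.Agent.P281.ELL Vale.Agent.P281.H713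

set_option linter.all false

noncomputable section

namespace Vale.Agent.P281.H495.Cov.Gf

open Vale.Agent.P281.H713.SA (isUnit_ej Ind ind_open_dense)
open Vale.Agent.P281.H713.TZ (KodFGE isSection_mono)

section
variable {n : ℕ} {X Z Y : Type} [TopologicalSpace X] [ChartedSpace (Cm n) X]
  [IsManifold 𝓘(ℂ, Cm n) ω X] [TopologicalSpace Z] [ChartedSpace (Cm n) Z]
  [IsManifold 𝓘(ℂ, Cm n) ω Z] [TopologicalSpace Y] [ChartedSpace (Cm n) Y]
  [IsManifold 𝓘(ℂ, Cm n) ω Y]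

/-- the Jacobian determinant of `f`, relative to `j` -/
def DD (j : Z → X) (f : Z → Y) (z : Z) : ℂ :=
  (dM (Cm n) (Cm n) f z : Cm n →L[ℂ] Cm n).det / (dM (Cm n) (Cm n) j z : Cm n →L[ℂ] Cm n).det

lemma det_inverse {A : Cm n →L[ℂ] Cm n} (h : IsUnit A) : (Ring.inverse A).det = A.det⁻¹ := by
  have h1 : Ring.inverse A * A = 1 := Ring.inverse_mul_cancel _ h
  have h2 : (Ring.inverse A).det * A.det = 1 := by
    rw [← clm_det_comp]
    have h3 : (Ring.inverse A).comp A = ContinuousLinearMap.id ℂ (Cm n) := h1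
    rw [h3]
    exact LinearMap.det_id
  exact eq_inv_of_mul_eq_one_left h2

lemma minors_eq {j : Z → X} (hj : ∀ z, HolM (Cm n) (Cm n) j z)
    (hj₂ : ∀ z, Function.Injective (dM (Cm n) (Cm n) j z)) (f : Z → Y) {x : X} {z : Z}
    (hz : j z ∈ (chartAt (Cm n) x).source) (m : ℕ) :
    TL.minors (n := n) (p := n) m j f x z (fun _ => id) =
      (DD (n := n) j f z / jac (Cm n) (chartAt (Cm n) x : X → Cm n) (j z)) ^ m := by
  have hat : At (chartAt (Cm n) x) (j z) := ⟨chart_mem_atlas _ _, hz⟩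
  have hu : IsUnit (dV (Cm n) (fun z => chartAt (Cm n) x (j z)) z) := isUnit_ej hj hj₂ hat
  have h1 : dV (Cm n) (fun z => chartAt (Cm n) x (j z)) z =
      (dV (Cm n) (chartAt (Cm n) x : X → Cm n) (j z)).comp (dM (Cm n) (Cm n) j z) :=
    dV_comp (h := (chartAt (Cm n) x : X → Cm n)) (HolV.chart hz) (hj z)
  have h2 : ((dM (Cm n) (Cm n) f z : Cm n →L[ℂ] Cm n).comp
      (Ring.inverse (dV (Cm n) (fun z => chartAt (Cm n) x (j z)) z))).det =
      DD (n := n) j f z / jac (Cm n) (chartAt (Cm n) x : X → Cm n) (j z) := by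
    rw [clm_det_comp, det_inverse hu, h1, clm_det_comp]
    show _ * (jac (Cm n) (chartAt (Cm n) x : X → Cm n) (j z) *
      (dM (Cm n) (Cm n) j z : Cm n →L[ℂ] Cm n).det)⁻¹ = _
    unfold DD
    rw [mul_inv, div_div, div_eq_mul_inv, mul_inv]
    ring
  rw [← h2, ← H949.SA.det_matrix]
  unfold TL.minors
  rw [Finset.prod_const, Finset.card_univ, Fintype.card_fin]
  rfl

lemma prod_unit {T T' : Finset (Set X)} {g g' : Set X → X → ℂ} {K : Set X → ℕ} {x : X}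
    (hT : ∀ D, K D ≠ 0 → D ∈ T) (hT' : ∀ D, K D ≠ 0 → D ∈ T')
    (hg : ∀ D ∈ T, IsLocalEq (Cm n) D (g D) x) (hg' : ∀ D ∈ T', IsLocalEq (Cm n) D (g' D) x) :
    ∃ u : X → ℂ, HolV (Cm n) u x ∧
      ∀ᶠ y in 𝓝 x, ∏ D ∈ T, g D y ^ K D = u y * ∏ D ∈ T', g' D y ^ K D := by
  classical
  have hex : ∀ D, ∃ v : X → ℂ, HolV (Cm n) v x ∧
      (K D ≠ 0 → ∀ᶠ y in 𝓝 x, g D y = g' D y * v y) := by
    intro D
    by_cases hD : K D ≠ 0
    · obtain ⟨v, hv, -, hve⟩ := leq_unit (hg' D (hT' D hD)) (hg D (hT D hD))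
      exact ⟨v, hv, fun _ => hve⟩
    · exact ⟨fun _ => 1, HolV.const 1 x, fun h => absurd h hD⟩
  choose v hv hve using hex
  have hS : T.filter (fun D => K D ≠ 0) = T'.filter (fun D => K D ≠ 0) := by
    ext D
    simp only [Finset.mem_filter]
    exact ⟨fun h => ⟨hT' D h.2, h.2⟩, fun h => ⟨hT D h.2, h.2⟩⟩
  have hfil : ∀ (S : Finset (Set X)) (a : Set X → X → ℂ) (y : X),
      ∏ D ∈ S, a D y ^ K D = ∏ D ∈ S.filter (fun D => K D ≠ 0), a D y ^ K D := by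
    intro S a y
    have h1 := Finset.prod_filter_of_ne (s := S) (p := fun D => K D ≠ 0)
      (f := fun D => a D y ^ K D) (fun D _ h h0 => h (by simp only [h0, pow_zero]))
    exact h1.symm
  refine ⟨fun y => ∏ D ∈ T.filter (fun D => K D ≠ 0), v D y ^ K D,
    HolV.prod fun D _ => (hv D).pow _, ?_⟩
  have hev : ∀ᶠ y in 𝓝 x, ∀ D ∈ T.filter (fun D => K D ≠ 0), g D y = g' D y * v D y := by
    rw [Filter.eventually_all_finset]
    exact fun D hD => hve D (Finset.mem_filter.1 hD).2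
  filter_upwards [hev] with y hy
  rw [hfil T g, hfil T' g', ← hS, ← Finset.prod_mul_distrib]
  refine Finset.prod_congr rfl fun D hD => ?_
  rw [hy D hD, mul_pow, mul_comm]

/-- **generically finite maps** -/
theorem kodGE_gf [T2Space X] [ConnectedSpace X] [ConnectedSpace Y] {j : Z → X}
    (hj : J.IsBigOpen (Cm n) j) {f : Z → Y} (hf : ContMDiff 𝓘(ℂ, Cm n) 𝓘(ℂ, Cm n) ω f)
    (hs0 : ∃ z, Function.Surjective (mfderiv 𝓘(ℂ, Cm n) 𝓘(ℂ, Cm n) f z))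
    {Δ : Set X → ℝ} (hsnc : J.IsSNC (Cm n) Δ) {l : ℕ} (h₂ : KodFGE n n Δ j f l) :
    KodGE (Cm n) (fun (D : Set X) z g => IsLocalEq (Cm n) D g z) Δ l := by
  classical
  have hs := JB.snc hsnc
  have hfh : ∀ z, HolM (Cm n) (Cm n) f z := fun z => hf z
  have hjh : ∀ z, HolM (Cm n) (Cm n) j z := fun z => hj.1 z
  have hj₂ : ∀ z, Function.Injective (dM (Cm n) (Cm n) j z) := hj.2.2.1
  obtain ⟨m, K, 𝒢, σN, y₁, hm, hK, h𝒢f, h𝒢p, hpull, hy₁, ht0, hsurj⟩ := h₂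
  choose kb hkb hkbs using fun b : Fin (l + 1) => (hpull b).mero
  set k : Set Y → ℕ := fun G => ∑ b, kb b G with hkd
  have hkG : ∀ G, k G ≠ 0 → G ∈ 𝒢 := by
    intro G hG
    obtain ⟨b, -, hb⟩ := Finset.exists_ne_zero_of_sum_ne_zero hG
    exact hkb b G hb
  have hkfin : {G | k G ≠ 0}.Finite := h𝒢f.subset fun G hG => hkG G hG
  have hkpr : ∀ G, k G ≠ 0 → IsPrimeDivisor (Cm n) G := fun G hG => h𝒢p G (hkG G hG)
  set t : Fin (l + 1) → Y → ℂ := fun b => σN b with htd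
  have ht : ∀ b, IsSection (Cm n) (fun (D : Set Y) z g => IsLocalEq (Cm n) D g z) m k (t b) :=
    fun b => isSection_mono (fun D => Finset.single_le_sum (f := fun b => kb b D)
      (fun _ _ => Nat.zero_le _) (Finset.mem_univ b)) hkfin hkpr (hkbs b)
  have hind : LinearIndependent ℂ (fun b : Fin l =>
      dif (Cm n) (fun w => t b.succ w / t 0 w) y₁) :=
    JB.linearIndependent_of_surjective hsurj
  obtain ⟨hIo, hId⟩ := ind_open_dense (n := n) hkfin hkpr ht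
    ⟨y₁, fun C hC => hy₁ C (hkG C hC), ht0, hind⟩
  -- denominators
  obtain ⟨q, hq, K₁, hK₁, -⟩ := exists_denominator hs
  have hKΔ : ∀ D, K D ≠ 0 → Δ D ≠ 0 := by
    intro D hD h0
    have h1 := hK D
    rw [h0, mul_zero] at h1
    have h2 : K D = 0 := by
      have h3 : (K D : ℝ) = 0 := le_antisymm h1 (Nat.cast_nonneg _)
      exact_mod_cast h3
    exact hD h2
  have hK₁Δ : ∀ D, m * K₁ D ≠ 0 ↔ Δ D ≠ 0 := by
    intro D
    have h1 := hK₁ D
    have hq' : (q : ℝ) ≠ 0 := by exact_mod_cast hq.ne'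
    constructor
    · intro h h0
      rw [h0, mul_zero] at h1
      have h2 : K₁ D = 0 := by exact_mod_cast h1
      exact h (by rw [h2, mul_zero])
    · intro h h0
      have h2 : K₁ D = 0 := (Nat.mul_eq_zero.1 h0).resolve_left hm.ne'
      rw [h2, Nat.cast_zero] at h1
      exact h ((mul_eq_zero.1 h1.symm).resolve_left hq')
  have hKK : ∀ D, q * K D ≤ m * K₁ D := by
    intro D
    have h1 : ((q * K D : ℕ) : ℝ) ≤ ((m * K₁ D : ℕ) : ℝ) := by
      push_cast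
      rw [hK₁ D]
      have h2 := hK D
      have h3 : (0 : ℝ) ≤ q := by positivity
      calc (q : ℝ) * K D ≤ q * (m * Δ D) := by gcongr
        _ = m * (q * Δ D) := by ring
    exact_mod_cast h1
  have hΔfin : {D | m * K₁ D ≠ 0}.Finite := hs.finite.subset fun D hD => (hK₁Δ D).1 hD
  have hΔpr : ∀ D, m * K₁ D ≠ 0 → IsPrimeDivisor (Cm n) D := fun D hD =>
    hs.prime D ((hK₁Δ D).1 hD)
  -- the complement of `Δ`
  obtain ⟨hRo, hRd⟩ := dense_compl_finite (X := X) (T := {D | Δ D ≠ 0}) hs.finite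
    (fun D hD => (hs.prime D hD).1) (fun D hD => by
      rw [dense_iff_inter_open]
      intro U hU hUne
      obtain ⟨x, hxU, hxD⟩ := IsLocalEq.exists_notMem (hs.prime D hD).2.1 hU hUne
      exact ⟨x, hxU, hxD⟩)
  have hgood := H413.MFS.dense_goodZ hj hf hs0 h𝒢f h𝒢p hkG (ht 0) ⟨y₁, hy₁, ht0⟩ hRo hRd
    (D := univ) dense_univ
  set G₀ : Set X := {x | ∃ z, j z = x ∧ (∀ G ∈ 𝒢, f z ∉ G) ∧ ∀ D, Δ D ≠ 0 → j z ∉ D} with hG₀d
  have hG₀ : Dense G₀ := by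
    have h1 : Dense (j '' {z : Z | Function.Surjective (mfderiv 𝓘(ℂ, Cm n) 𝓘(ℂ, Cm n) f z) ∧
        f z ∉ ⋃₀ 𝒢 ∧ t 0 (f z) ≠ 0 ∧ j z ∈ {x | ∀ D ∈ {D | Δ D ≠ 0}, x ∉ D} ∧ j z ∈ univ}) :=
      DenseRange.dense_image (f := j) (H949.TL.dense_range_big hj) hj.2.1.continuous hgood
    refine h1.mono ?_
    rintro _ ⟨z, ⟨-, h2, -, h3, -⟩, rfl⟩
    exact ⟨z, rfl, fun G hG hGz => h2 ⟨G, hG, hGz⟩, fun D hD => h3 D hD⟩
  haveI : Nonempty Z := ⟨hs0.choose⟩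
  set inv : X → Z := Function.invFun j with hinvd
  have hinv : ∀ z, inv (j z) = z := Function.leftInverse_invFun hj.2.1.injective
  set s₀ : Fin (l + 1) → X → ℂ := fun b x =>
    t b (f (inv x)) * t 0 (f (inv x)) ^ (q - 1) * DD (n := n) j f (inv x) ^ (m * q) with hs₀d
  have hq1 : q - 1 + 1 = q := by omega
  have hloc : ∀ b x, ∃ (T : Finset (Set X)) (g : Set X → X → ℂ) (a : X → ℂ),
      (∀ D, m * K₁ D ≠ 0 → D ∈ T) ∧ (∀ D ∈ T, IsLocalEq (Cm n) D (g D) x) ∧ HolV (Cm n) a x ∧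
      ∀ᶠ y in 𝓝 x, y ∈ G₀ → s₀ b y * ∏ D ∈ T, g D y ^ (m * K₁ D) =
        a y * jac (Cm n) (chartAt (Cm n) x) y ^ (m * q) := by
    intro b x
    obtain ⟨T, g, hT, hg⟩ := common_eqs hΔfin hΔpr x
    have hKT : ∀ D, K D ≠ 0 → D ∈ T := fun D hD => (hT D).1 ((hK₁Δ D).2 (hKΔ D hD))
    have hA : ∀ c : Fin (l + 1), ∃ B : X → ℂ, HolV (Cm n) B x ∧ ∀ᶠ y in 𝓝 x, ∀ z, j z = y →
        (∀ G ∈ 𝒢, f z ∉ G) → ∏ D ∈ T, g D y ^ K D ≠ 0 →
          t c (f z) * TL.minors (n := n) (p := n) m j f x z (fun _ => id) *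
            ∏ D ∈ T, g D y ^ K D = B y := by
      intro c
      obtain ⟨Tb, gb, hTb, hgb, hab⟩ := (hpull c).pole x
      obtain ⟨Ab, hAb, hAbe⟩ := hab (fun _ => id)
      obtain ⟨u, hu, hue⟩ := prod_unit (n := n) hKT hTb hg hgb
      refine ⟨fun y => u y * Ab y, HolV.mul hu hAb, ?_⟩
      filter_upwards [hAbe, hue] with y h1 h2 z hzy hzG hP
      rw [h2] at hP
      have h3 := h1 z hzy hzG (right_ne_zero_of_mul hP)
      rw [h2, ← h3]
      show t c (f z) * _ * (u y * _) = u y * (σN c (f z) * _ * _)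
      ring
    obtain ⟨Bb, hBb, hBbe⟩ := hA b
    obtain ⟨B0, hB0, hB0e⟩ := hA 0
    refine ⟨T, g, fun y => Bb y * B0 y ^ (q - 1) * ∏ D ∈ T, g D y ^ (m * K₁ D - q * K D),
      fun D hD => (hT D).1 hD, hg, HolV.mul (HolV.mul hBb (hB0.pow _))
        (HolV.prod fun D hD => ((hg D hD).holAt).pow _), ?_⟩
    have hge : ∀ᶠ y in 𝓝 x, ∀ D ∈ T, IsLocalEq (Cm n) D (g D) y := by
      rw [Filter.eventually_all_finset]
      exact fun D hD => (hg D hD).eventually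
    filter_upwards [hBbe, hB0e, hge, (chartAt (Cm n) x).open_source.mem_nhds
      (mem_chart_source (Cm n) x)] with y h1 h2 h3 h4 hy
    obtain ⟨z, rfl, hzG, hzD⟩ := hy
    have hP : ∏ D ∈ T, g D (j z) ^ K D ≠ 0 := by
      refine Finset.prod_ne_zero_iff.2 fun D hD => pow_ne_zero _ fun h0 => ?_
      exact hzD D ((hK₁Δ D).1 ((hT D).2 hD)) ((h3 D hD).mem_iff.2 h0)
    have h5 := h1 z rfl hzG hP
    have h6 := h2 z rfl hzG hP
    rw [minors_eq hjh hj₂ f h4] at h5 h6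
    have hj0 : jac (Cm n) (chartAt (Cm n) x : X → Cm n) (j z) ≠ 0 := jac_chart_ne_zero h4
    simp only [hs₀d]
    rw [hinv, ← h5, ← h6]
    have h7 : ∏ D ∈ T, g D (j z) ^ (m * K₁ D) =
        (∏ D ∈ T, g D (j z) ^ K D) ^ q * ∏ D ∈ T, g D (j z) ^ (m * K₁ D - q * K D) := by
      rw [← Finset.prod_pow, ← Finset.prod_mul_distrib]
      refine Finset.prod_congr rfl fun D _ => ?_
      rw [← pow_mul, ← pow_add, mul_comm (K D) q, Nat.add_sub_cancel' (hKK D)]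
    rw [h7]
    set P := ∏ D ∈ T, g D (j z) ^ K D with hPd
    set R := ∏ D ∈ T, g D (j z) ^ (m * K₁ D - q * K D) with hRdd
    set Jc := jac (Cm n) (chartAt (Cm n) x : X → Cm n) (j z) with hJc
    set Dz := DD (n := n) j f z with hDz
    have h8 : (Dz / Jc) ^ m * ((Dz / Jc) ^ m) ^ (q - 1) * Jc ^ (m * q) = Dz ^ (m * q) := by
      rw [← pow_succ', hq1, ← pow_mul, div_pow, div_mul_cancel₀ _ (pow_ne_zero _ hj0)]
    have h9 : P * P ^ (q - 1) = P ^ q := by rw [← pow_succ', hq1]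
    calc t b (f z) * t 0 (f z) ^ (q - 1) * Dz ^ (m * q) * (P ^ q * R)
        = t b (f z) * t 0 (f z) ^ (q - 1) *
          ((Dz / Jc) ^ m * ((Dz / Jc) ^ m) ^ (q - 1) * Jc ^ (m * q)) * (P * P ^ (q - 1) * R) := by
          rw [h8, h9]
      _ = _ := by
          rw [mul_pow, mul_pow]
          ring
  choose s hsS hsE using fun b => H76.glue_section hG₀ (m := m * q) (k := fun D => m * K₁ D)
    (s₀ := s₀ b) (hloc b)
  have hsv : ∀ b z, (∀ G ∈ 𝒢, f z ∉ G) → (∀ D, Δ D ≠ 0 → j z ∉ D) → s b (j z) =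
      t b (f z) * t 0 (f z) ^ (q - 1) * DD (n := n) j f z ^ (m * q) := by
    intro b z h1 h2
    rw [hsE b (j z) ⟨z, rfl, h1, h2⟩ fun D hD => h2 D ((hK₁Δ D).1 hD)]
    simp only [hs₀d]
    rw [hinv]
  -- the point
  obtain ⟨z₁, hz₁⟩ := hs0
  haveI : PreconnectedSpace Z := H949.TL.preconnected_big hj
  obtain ⟨hSo, hSd⟩ := H413.MFS.surj_open_dense hfh ⟨z₁, hz₁⟩
  have hmap : f '' {z | Function.Surjective (dM (Cm n) (Cm n) f z)} ∈ 𝓝 (f z₁) :=
    H713.SA.nhds_le_map (hfh z₁) hz₁ (image_mem_map (hSo.mem_nhds hz₁))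
  obtain ⟨y₂, hy₂, z₂, hz₂, rfl⟩ := hId.inter_nhds_nonempty hmap
  obtain ⟨z, ⟨hzs, hzI⟩, -, hzG, -, hzR, -⟩ := hgood.inter_open_nonempty
    ({z | Function.Surjective (dM (Cm n) (Cm n) f z)} ∩ f ⁻¹' (Ind (n := n) k t))
    (hSo.inter (hIo.preimage hf.continuous)) ⟨z₂, hz₂, hy₂⟩
  have hzG' : ∀ G ∈ 𝒢, f z ∉ G := fun G hG h => hzG ⟨G, hG, h⟩
  obtain ⟨hI1, hI2, hI3⟩ := hzI
  have hdet : ∀ {W : Type} [TopologicalSpace W] [ChartedSpace (Cm n) W] (φ : Z → W) (z : Z),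
      Function.Surjective (dM (Cm n) (Cm n) φ z) →
      (dM (Cm n) (Cm n) φ z : Cm n →L[ℂ] Cm n).det ≠ 0 := by
    intro W _ _ φ z h
    exact det_ne_of_inj (LinearMap.injective_iff_surjective
      (f := ((dM (Cm n) (Cm n) φ z : Cm n →L[ℂ] Cm n) : Cm n →ₗ[ℂ] Cm n)).2 h)
  have hjs : Function.Surjective (dM (Cm n) (Cm n) j z) :=
    (LinearMap.injective_iff_surjective
      (f := ((dM (Cm n) (Cm n) j z : Cm n →L[ℂ] Cm n) : Cm n →ₗ[ℂ] Cm n))).1 (hj₂ z)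
  have hDD : DD (n := n) j f z ≠ 0 := div_ne_zero (hdet f z hzs) (det_ne_of_inj (hj₂ z))
  have hsz : ∀ b, SecAt (E₀ := Cm n) (m * q) (s b) (j z) := fun b =>
    secAt_of hΔpr (hsS b) fun D hD => hzR D ((hK₁Δ D).1 hD)
  have htz : ∀ b, SecAt (E₀ := Cm n) m (t b) (f z) := fun b => secAt_of hkpr (ht b) hI1
  have hs0z : s 0 (j z) ≠ 0 := by
    rw [hsv 0 z hzG' fun D hD => hzR D hD]
    exact mul_ne_zero (mul_ne_zero hI2 (pow_ne_zero _ hI2)) (pow_ne_zero _ hDD)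
  refine kodGE_of_fintype (P := Fin l) (Nat.mul_pos hm hq) (k := fun D => m * K₁ D) (fun D => ?_)
    (s₀ := s 0) (s := fun b : Fin l => s b.succ) (z := j z) (hsS 0) (fun b => hsS _) ?_ hs0z ?_
    (by simp)
  · push_cast
    rw [hK₁ D]
    ring
  · intro D hD
    obtain ⟨g, hg⟩ := (hΔpr D hD).2.1 (j z)
    exact ⟨g, hg, fun h0 => hzR D ((hK₁Δ D).1 hD) ((show IsLocalEq (Cm n) D g (j z) from hg).mem_iff.2 h0)⟩
  · rw [← linearIndependent_precomp hjs]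
    have h𝒢o : IsOpen {y : Y | ∀ G ∈ 𝒢, y ∉ G} := (dense_compl_finite (X := Y) h𝒢f
      (fun G hG => (h𝒢p G hG).1) (fun G hG => by
        rw [dense_iff_inter_open]
        intro U hU hUne
        obtain ⟨x, hxU, hxD⟩ := IsLocalEq.exists_notMem (h𝒢p G hG).2.1 hU hUne
        exact ⟨x, hxU, hxD⟩)).1
    have hev : ∀ᶠ w in 𝓝 z, (∀ G ∈ 𝒢, f w ∉ G) ∧ (∀ D, Δ D ≠ 0 → j w ∉ D) ∧
        t 0 (f w) ≠ 0 ∧ DD (n := n) j f w ≠ 0 := by
      have e1 : ∀ᶠ w in 𝓝 z, ∀ G ∈ 𝒢, f w ∉ G :=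
        hf.continuous.continuousAt.eventually (h𝒢o.mem_nhds hzG')
      have e2 : ∀ᶠ w in 𝓝 z, j w ∈ {x | ∀ D ∈ {D | Δ D ≠ 0}, x ∉ D} :=
        hj.2.1.continuous.continuousAt.eventually (hRo.mem_nhds hzR)
      have e3 : ∀ᶠ w in 𝓝 z, t 0 (f w) ≠ 0 :=
        hf.continuous.continuousAt.eventually ((htz 0).ev_ne hI2)
      filter_upwards [e1, e2, e3, hSo.mem_nhds hzs] with w h1 h2 h3 h4
      exact ⟨h1, fun D hD => h2 D hD, h3, div_ne_zero (hdet f w h4) (det_ne_of_inj (hj₂ w))⟩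
    have hcomp : (fun b : Fin l => (dif (Cm n) (fun w => s b.succ w / s 0 w) (j z)).comp
        (dM (Cm n) (Cm n) j z)) = fun b : Fin l =>
        (dif (Cm n) (fun w => t b.succ w / t 0 w) (f z)).comp (dM (Cm n) (Cm n) f z) := by
      funext b
      rw [← dif_comp ((hsz b.succ).div_holV (hsz 0) hs0z) (hjh z),
        ← dif_comp ((htz b.succ).div_holV (htz 0) hI2) (hfh z)]
      refine dV_congr ?_
      filter_upwards [hev] with w hw
      rw [hsv _ w hw.1 hw.2.1, hsv _ w hw.1 hw.2.1]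
      have h1 : t 0 (f w) ^ (q - 1) ≠ 0 := pow_ne_zero _ hw.2.2.1
      have h2 : DD (n := n) j f w ^ (m * q) ≠ 0 := pow_ne_zero _ hw.2.2.2
      rw [mul_div_mul_right _ _ h2, mul_div_mul_right _ _ h1]
    rw [hcomp]
    exact (linearIndependent_precomp hzs _).2 hI3

end

end Vale.Agent.P281.H495.Cov.Gf
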