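import Vale.Agent.P281.H303.X.Base
import Vale.Agent.P281.H495.Cov.Gf
import Vale.Agent.P281.H308.TW.Fin

/-!
# P281, T-COV (helper495): holomorphic maps onto, with fibres which need not be connected

`κ(Y, K_Y + B(f, Δ)) ≤ kodF f Δ` (mild exceptional divisors), `kodF f Δ ≤ κ(X, K_X + Δ)` if
`dim X = dim Y`, and `kodF (h ∘ g) Δ ≤ kodF h (B(g, Δ))`: only surjectivity is used.
-/

open Set Filter
open Vale.Agent.P281 Vale.Agent.P281.H713 Vale.Agent.P281.H64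
open Vale.Agent.P281.H64.Gen
open Vale.Agent.P281.H303.X
open Vale.Agent.P281.H511.Gen (sm)
open Vale.Agent.P281.H64.Thin (IsThinSet)
open scoped Manifold ContDiff Topology

set_option linter.unusedSectionVars false

noncomputable section

namespace Vale.Agent.P281.H495.Cov

/-- `X` is a compact connected complex manifold, `Y` is a complex manifold, `f : X → Y` is
holomorphic and onto, and `Δ` is a rational SNC boundary of `X`. -/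
structure IsOnto (n p : ℕ) {X Y : Type} [TopologicalSpace X] [ChartedSpace (Cm n) X]
    [TopologicalSpace Y] [ChartedSpace (Cm p) Y] (f : X → Y) (Δ : Set X → ℝ) : Prop where
  hausdorff : T2Space X ∧ T2Space Y
  compact : CompactSpace X
  connected : ConnectedSpace X
  manifold : IsManifold 𝓘(ℂ, Cm n) ω X ∧ IsManifold 𝓘(ℂ, Cm p) ω Y
  hol : ContMDiff 𝓘(ℂ, Cm n) 𝓘(ℂ, Cm p) ω f
  onto : Function.Surjective f
  snc : J.IsSNC (Cm n) Δ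

section
variable {n p q : ℕ} {X Y Z : Type} [TopologicalSpace X] [ChartedSpace (Cm n) X]
  [TopologicalSpace Y] [ChartedSpace (Cm p) Y] [TopologicalSpace Z] [ChartedSpace (Cm q) Z]
  {f : X → Y} {h : Y → Z} {Δ : Set X → ℝ}

theorem of_fib (hf : H511.Surf.IsFibration (Cm n) (Cm p) f Δ) : IsOnto n p f Δ :=
  ⟨hf.hausdorff, hf.compact, hf.connected, hf.manifold, hf.hol, fun y => (hf.fibres y).nonempty,
    hf.snc⟩

theorem comp_onto (hf : IsOnto n p f Δ) (hh : IsOnto p q h (TZ.S.base (Cm n) (Cm p) f Δ)) :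
    IsOnto n q (fun x => h (f x)) Δ :=
  ⟨⟨hf.hausdorff.1, hh.hausdorff.2⟩, hf.compact, hf.connected, ⟨hf.manifold.1, hh.manifold.2⟩,
    hh.hol.comp hf.hol, hh.onto.comp hf.onto, hf.snc⟩

/-- a map onto is submersive somewhere -/
theorem exists_sub (hf : IsOnto n p f Δ) :
    ∃ z, Function.Surjective (mfderiv 𝓘(ℂ, Cm n) 𝓘(ℂ, Cm p) f z) := by
  obtain ⟨⟨_, _⟩, _, _, ⟨_, _⟩, hol, hon, -⟩ := hf
  have hcy : ConnectedSpace Y := hon.connectedSpace hol.continuous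
  have hA := H364.critSet_analytic (n := n) (p := p) hol
  have hAc : IsClosed (H364.critSet (n := n) (p := p) f) := H511.Gen.isAnalyticSet_isClosed hA
  obtain ⟨H, hH, hS⟩ := H150.Gen.img n p X Y f (H364.critSet (n := n) (p := p) f) hol hA (by
    intro m φ hφ v hv hs
    have h1 : MDifferentiableAt 𝓘(ℂ, (Fin m → ℂ)) 𝓘(ℂ, (Fin n → ℂ)) φ v :=
      (hφ v hv).1.mdifferentiableAt (by simp)
    have h2 : MDifferentiableAt 𝓘(ℂ, (Fin n → ℂ)) 𝓘(ℂ, (Fin p → ℂ)) f (φ v) :=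
      (hol (φ v)).mdifferentiableAt (by simp)
    have h3 : mfderiv 𝓘(ℂ, (Fin m → ℂ)) 𝓘(ℂ, (Fin p → ℂ)) (fun v => f (φ v)) v =
        (mfderiv 𝓘(ℂ, (Fin n → ℂ)) 𝓘(ℂ, (Fin p → ℂ)) f (φ v)).comp
          (mfderiv 𝓘(ℂ, (Fin m → ℂ)) 𝓘(ℂ, (Fin n → ℂ)) φ v) := mfderiv_comp v h2 h1
    apply (hφ v hv).2
    intro y
    obtain ⟨ξ, hξ⟩ := hs y
    rw [h3] at hξ
    exact ⟨_, hξ⟩)
  have hSc : IsClosed (f '' H364.critSet (n := n) (p := p) f) :=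
    (hAc.isCompact.image hol.continuous).isClosed
  obtain ⟨y, hy⟩ := (H383.Gen.compl p Y _ ⟨hSc, H, hH, hS⟩).1.nonempty
  obtain ⟨x, rfl⟩ := hon y
  by_contra hno
  push Not at hno
  exact hy ⟨x, hno x, rfl⟩

/-- `κ(Y, K_Y + B(f, Δ)) ≤ kodF f Δ` for mild exceptional divisors -/
theorem base_le (hf : IsOnto n p f Δ) (hB : J.IsSNC (Cm p) (TZ.S.base (Cm n) (Cm p) f Δ))
    (hm : MildExc n p f Δ) :
    TZ.S.kodX (Cm p) (TZ.S.base (Cm n) (Cm p) f Δ) ≤ TZ.S.kodF n p Δ (id : X → X) f := by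
  have hsub := exists_sub hf
  obtain ⟨⟨_, _⟩, _, _, ⟨_, _⟩, hol, hon, hΔ⟩ := hf
  have hcy : ConnectedSpace Y := hon.connectedSpace hol.continuous
  obtain ⟨h1, h2, h3, -⟩ := hB
  rw [TZ.S.kodF_eq]
  exact comp_x H413.TZ.genPart hΔ H511.Gen.isBigOpen_id hol hsub ⟨h1, h2, h3⟩
    (nc H303.Gen.irr hol hon h1 hm) hΔ (H511.Gen.isRestriction_id Δ)
    (case H303.Gen.irr hol hon hΔ h1 hm)

/-- `kodF (h ∘ f) Δ ≤ kodF h (B(f, Δ))` -/
theorem kodF_comp (hf : IsOnto n p f Δ) (hh : IsOnto p q h (TZ.S.base (Cm n) (Cm p) f Δ)) :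
    TZ.S.kodF n q Δ (id : X → X) (fun x => h (f x)) ≤
      TZ.S.kodF p q (TZ.S.base (Cm n) (Cm p) f Δ) (id : Y → Y) h := by
  obtain ⟨⟨_, _⟩, _, _, ⟨_, _⟩, hgh, hgs, hΔ⟩ := hf
  obtain ⟨⟨-, _⟩, _, _, ⟨-, _⟩, hhh, hhs, hΔ'⟩ := hh
  rw [TZ.S.kodF_eq, TZ.S.kodF_eq]
  refine iSup₂_le fun l hl => ?_
  obtain ⟨m, K, 𝒢, σ, y, hm, hK, h𝒢f, h𝒢, hσ, hy, hσ0, hsurj⟩ := hl
  have hy₀ : y ∉ ⋃₀ 𝒢 := fun ⟨G, hG, hyG⟩ => hy G hG hyG
  refine le_iSup₂_of_le l ⟨m, fun D => ⌊(m : ℝ) * TZ.S.base (Cm n) (Cm p) f Δ D⌋₊, 𝒢, σ, y, hm,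
    fun D => Nat.floor_le ?_, h𝒢f, h𝒢, fun b => ?_, hy, hσ0, hsurj⟩ le_rfl
  · obtain ⟨r, hr, hr0, -⟩ := hΔ'.2.2.1 D
    rw [hr]
    have : (0 : ℝ) ≤ r := by exact_mod_cast hr0
    positivity
  · exact H308.TW.pull_ext H303.Gen.irr H969.Gen.fin H308.TW.loc hgh hgs hhh hhs hΔ hΔ' hK
      h𝒢f h𝒢 hy₀ (hσ b)

end

section
variable {n : ℕ} {X Z : Type} [TopologicalSpace X] [ChartedSpace (Cm n) X]
  [TopologicalSpace Z] [ChartedSpace (Cm n) Z] {g : X → Z} {Δ : Set X → ℝ}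

/-- `kodF g Δ ≤ κ(X, K_X + Δ)` if `dim X = dim Z` -/
theorem kodF_le_kodX (hg : IsOnto n n g Δ) :
    TZ.S.kodF n n Δ (id : X → X) g ≤ TZ.S.kodX (Cm n) Δ := by
  have hsub := exists_sub hg
  obtain ⟨⟨_, _⟩, _, _, ⟨_, _⟩, hol, hon, hΔ⟩ := hg
  have hcy : ConnectedSpace Z := hon.connectedSpace hol.continuous
  rw [TZ.S.kodF_eq]
  show _ ≤ J.kod (Cm n) _ Δ
  rw [JB.kod_eq]
  unfold H713.TL.kodF
  refine iSup₂_le fun l hl => ?_
  have h1 := Gf.kodGE_gf (n := n) H511.Gen.isBigOpen_id hol hsub hΔ (l := l) hl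
  unfold Vale.Agent.P281.kod
  exact le_iSup₂_of_le l h1 le_rfl

/-- **generically finite maps of any degree**: `κ(Z, K_Z + B(g, Δ)) ≤ κ(X, K_X + Δ)` -/
theorem kodX_base_le (hg : IsOnto n n g Δ) (hB : J.IsSNC (Cm n) (TZ.S.base (Cm n) (Cm n) g Δ))
    (hm : MildExc n n g Δ) :
    TZ.S.kodX (Cm n) (TZ.S.base (Cm n) (Cm n) g Δ) ≤ TZ.S.kodX (Cm n) Δ :=
  (base_le hg hB hm).trans (kodF_le_kodX hg)

end

end Vale.Agent.P281.H495.Cov
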