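import Vale.Agent.P281.H495.Cov.Base

/-!
# P281, T-COV (helper495): the steps of a tower, for maps onto

`comp_le`: the step of `H64.Z3.Core` without connected fibres (Stein factorisation is not needed);
`cov_le`: a generically finite storey.
-/

open Set
open Vale.Agent.P281 Vale.Agent.P281.H713.TZ.S
open Vale.Agent.P281.H511.Surf (IsFibration)
open Vale.Agent.P281.H303.X (MildExc)
open scoped Manifold ContDiff Topology

set_option linter.unusedSectionVars false

noncomputable section

namespace Vale.Agent.P281.H495.Cov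

section
variable {n p q : ℕ} {X Y Z : Type} [TopologicalSpace X] [ChartedSpace (Cm n) X]
  [TopologicalSpace Y] [ChartedSpace (Cm p) Y] [TopologicalSpace Z] [ChartedSpace (Cm q) Z]
  {g : X → Z} {h : Z → Y} {Δ : Set X → ℝ}

/-- one step of a tower: `H64.Z3.comp_le` without connected fibres -/
theorem comp_le (hg : IsOnto n q g Δ) (hh : IsOnto q p h (base (Cm n) (Cm q) g Δ))
    (he : MildExc n q g Δ) {a b : WithBot ℕ∞}
    (ha : a + kodF n q Δ (id : X → X) g ≤ kodX (Cm n) Δ)
    (hb : b + kodF q p (base (Cm n) (Cm q) g Δ) (id : Z → Z) h ≤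
      kodX (Cm q) (base (Cm n) (Cm q) g Δ)) :
    a + b + kodF n p Δ (id : X → X) (fun x => h (g x)) ≤ kodX (Cm n) Δ := by
  have h1 := kodF_comp hg hh
  have h2 := base_le hg hh.snc he
  rw [add_assoc]
  exact (add_le_add le_rfl ((add_le_add le_rfl h1).trans (hb.trans h2))).trans ha

end

section
variable {n p : ℕ} {X Y Z : Type} [TopologicalSpace X] [ChartedSpace (Cm n) X]
  [TopologicalSpace Y] [ChartedSpace (Cm p) Y] [TopologicalSpace Z] [ChartedSpace (Cm n) Z]
  {g : X → Z} {h : Z → Y} {Δ : Set X → ℝ}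

/-- a generically finite storey -/
theorem cov_le (hg : IsOnto n n g Δ) (hh : IsOnto n p h (base (Cm n) (Cm n) g Δ))
    (he : MildExc n n g Δ) {b : WithBot ℕ∞}
    (hb : b + kodF n p (base (Cm n) (Cm n) g Δ) (id : Z → Z) h ≤
      kodX (Cm n) (base (Cm n) (Cm n) g Δ)) :
    b + kodF n p Δ (id : X → X) (fun x => h (g x)) ≤ kodX (Cm n) Δ := by
  have h1 := comp_le hg hh he (a := 0) (by rw [zero_add]; exact kodF_le_kodX hg) hb
  rwa [zero_add] at h1

/-- `IsOnto` from: `X` is a compact connected complex manifold with a boundary (`IsFibration id`),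
`g` is holomorphic and onto, `Z` is a manifold (`IsOnto h`) -/
theorem onto_of (hX : IsFibration (Cm n) (Cm n) (id : X → X) Δ)
    (hg : ContMDiff 𝓘(ℂ, Cm n) 𝓘(ℂ, Cm n) ω g) (hs : Function.Surjective g)
    {Γ : Set Z → ℝ} (hh : IsOnto n p h Γ) : IsOnto n n g Δ :=
  ⟨⟨hX.hausdorff.1, hh.hausdorff.1⟩, hX.compact, hX.connected, ⟨hX.manifold.1, hh.manifold.1⟩,
    hg, hs, hX.snc⟩

end

end Vale.Agent.P281.H495.Cov
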