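import Vale.Agent.P281.H64.Z5.Defs
import Vale.Agent.P281.H495.Cov.Step

/-!
# P281, T-COV (helper495): the generically finite storey, in the letters of `H64.Z5`
-/

open Set Filter
open Vale.Agent.P281 Vale.Agent.P281.H713.TZ.S
open scoped Manifold ContDiff Topology

noncomputable section

namespace Vale.Agent.P281.H495.Cov

/-- a continuous map which pulls back germs of holomorphic functions is holomorphic -/
theorem contMDiff_of {n m : ℕ} {X Z : Type} [TopologicalSpace X] [ChartedSpace (Cm n) X]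
    [TopologicalSpace Z] [ChartedSpace (Cm m) Z] [IsManifold 𝓘(ℂ, Cm m) ω Z] {g : X → Z}
    (hc : Continuous g)
    (hg : ∀ x φ, J.HolAt (Cm m) φ (g x) → J.HolAt (Cm n) (fun z => φ (g z)) x) :
    ContMDiff 𝓘(ℂ, Cm n) 𝓘(ℂ, Cm m) ω g := by
  intro x
  rw [contMDiffAt_iff_target]
  refine ⟨hc.continuousAt, ?_⟩
  have h1 : ContMDiffAt 𝓘(ℂ, Cm m) 𝓘(ℂ, Cm m) ω (extChartAt 𝓘(ℂ, Cm m) (g x)) (g x) :=
    contMDiffAt_extChartAt
  rw [contMDiffAt_pi_space] at h1 ⊢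
  exact fun j => hg x (fun z => extChartAt 𝓘(ℂ, Cm m) (g x) z j) (h1 j)

/-- **the generically finite storey** -/
theorem cov_z {p k : ℕ} {X Z Y : Type} [TopologicalSpace X] [H64.Z5.Man (p + k) X]
    [TopologicalSpace Z] [H64.Z5.Man (p + k) Z] [TopologicalSpace Y] [H64.Z5.Man p Y]
    {g : X → Z} {h : Z → Y} {Δ : Set X → ℝ} {b : WithBot ℕ∞}
    (hf : H64.Z5.Fibn (p + k) p (fun x => h (g x)) Δ)
    (hg : Continuous g ∧ Function.Surjective g ∧
      ∀ x φ, H64.Z5.Hol (p + k) φ (g x) → H64.Z5.Hol (p + k) (fun z => φ (g z)) x)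
    (he : H64.Z5.Neat (p + k) (p + k) g Δ)
    (hh : H64.Z5.Fibn (p + k) p h (H64.Z5.Bas (p + k) (p + k) g Δ))
    (hb : b + H64.Z5.kY (p + k) p h (H64.Z5.Bas (p + k) (p + k) g Δ) ≤
      H64.Z5.kX (p + k) (H64.Z5.Bas (p + k) (p + k) g Δ)) :
    b + H64.Z5.kY (p + k) p (fun x => h (g x)) Δ ≤ H64.Z5.kX (p + k) Δ := by
  have hm : IsManifold 𝓘(ℂ, Cm (p + k)) ω Z := hh.manifold.1
  have h1 : IsOnto (p + k) (p + k) g Δ :=
    ⟨⟨hf.hausdorff.1, hh.hausdorff.1⟩, hf.compact, hf.connected, ⟨hf.manifold.1, hh.manifold.1⟩,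
      contMDiff_of hg.1 hg.2.2, hg.2.1, hf.snc⟩
  exact cov_le h1 (of_fib hh) he hb

end Vale.Agent.P281.H495.Cov
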